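import Vale.Agent.P257.H766.Mult
import Vale.Agent.P257.H820.Pack

/-!
# P257, H766: existence of the truncated objects (`exists_npack`)
-/

open CategoryTheory MonoidalCategory Limits Pretriangulated ZeroObject MonObj
open Vale.Agent.P251.T Vale.Agent.P251.S Vale.Agent.P251.H Vale.Agent.P251.M
open Vale.Agent.P257.H820

universe v u

set_option linter.unusedSectionVars false

namespace Vale.Agent.P257.H766

section Monoidal

variable {T : Type u} [Category.{v} T] [MonoidalCategory T]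

/-- `I^{⊗ s} ⊗ W ≅ I ⊗ (I ⊗ (... ⊗ W))`. -/
def ipIso (I : T) : ∀ (s : ℕ) (W : T), Ip I s ⊗ W ≅ IB I s W
  | 0, W => λ_ W
  | s + 1, W => (α_ (Ip I s) I W) ≪≫ ipIso I s (I ⊗ W)

lemma ipIso_succ_hom (I : T) (s : ℕ) (W : T) :
    (ipIso I (s + 1) W).hom = (α_ (Ip I s) I W).hom ≫ (ipIso I s (I ⊗ W)).hom := rfl

lemma IBm_succ (I : T) (s : ℕ) {W W' : T} (f : W ⟶ W') :
    IBm I (s + 1) f = IBm I s (I ◁ f) := rfl

lemma ipIso_nat (I : T) (s : ℕ) {W W' : T} (f : W ⟶ W') :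
    (Ip I s ◁ f) ≫ (ipIso I s W').hom = (ipIso I s W).hom ≫ IBm I s f := by
  induction s generalizing W W' with
  | zero => exact leftUnitor_naturality f
  | succ s ih =>
    rw [ipIso_succ_hom, ipIso_succ_hom, IBm_succ, Category.assoc, ← ih (I ◁ f),
      ← associator_naturality_right_assoc]

lemma ipIso_col {I : T} (ε : I ⟶ 𝟙_ T) (s : ℕ) (W : T) :
    (ipIso I s W).hom ≫ IBcol ε s W = (H766.ep ε s ▷ W) ≫ (λ_ W).hom := by
  induction s generalizing W with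
  | zero =>
    change (λ_ W).hom ≫ 𝟙 W = (𝟙 (𝟙_ T) ▷ W) ≫ (λ_ W).hom
    simp
  | succ s ih =>
    change ((α_ (Ip I s) I W).hom ≫ (ipIso I s (I ⊗ W)).hom) ≫ IBcol ε s (I ⊗ W) ≫
      H820.ep ε W = _
    rw [Category.assoc, reassoc_of% (ih (I ⊗ W)), ← associator_naturality_left_assoc,
      H766.ep_succ, H820.ep]
    simp only [comp_whiskerRight, Category.assoc, leftUnitor_tensor_hom, Iso.hom_inv_id_assoc]

lemma el_whiskerRight {I : T} (ε : I ⟶ 𝟙_ T) (s : ℕ) (W : T) :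
    H766.el ε s ▷ W = (ipIso I (s + 1) W).hom ≫ IBcol ε s (I ⊗ W) := by
  rw [ipIso_succ_hom, Category.assoc, ipIso_col, ← associator_naturality_left_assoc,
    H766.el]
  simp only [comp_whiskerRight, leftUnitor_tensor_hom, Iso.hom_inv_id_assoc]

end Monoidal

section Symmetric

variable {T : Type u} [Category.{v} T] [MonoidalCategory T] [SymmetricCategory T]

lemma sw_tensor (A I X W : T) : sw (A ⊗ I) X W ≫ (X ◁ (α_ A I W).hom) =
    (α_ A I (X ⊗ W)).hom ≫ (A ◁ sw I X W) ≫ sw A X (I ⊗ W) := by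
  simp only [sw, BraidedCategory.braiding_tensor_left_hom, comp_whiskerRight,
    MonoidalCategory.whiskerLeft_comp, Category.assoc]
  simp

lemma sw_unit (X W : T) : sw (𝟙_ T) X W ≫ (X ◁ (λ_ W).hom) = (λ_ (X ⊗ W)).hom := by
  rw [sw, Category.assoc, Category.assoc, triangle, ← comp_whiskerRight,
    braiding_tensorUnit_left]
  simp

lemma sw_ipIso (I X : T) (s : ℕ) (W : T) : sw (Ip I s) X W ≫ (X ◁ (ipIso I s W).hom) =
    (ipIso I s (X ⊗ W)).hom ≫ IBmv I X s W := by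
  induction s generalizing W with
  | zero =>
    change sw (𝟙_ T) X W ≫ (X ◁ (λ_ W).hom) = (λ_ (X ⊗ W)).hom ≫ 𝟙 _
    rw [sw_unit, Category.comp_id]
  | succ s ih =>
    change sw (Ip I s ⊗ I) X W ≫ (X ◁ ((α_ (Ip I s) I W).hom ≫ (ipIso I s (I ⊗ W)).hom)) =
      ((α_ (Ip I s) I (X ⊗ W)).hom ≫ (ipIso I s (I ⊗ (X ⊗ W))).hom) ≫
        IBm I s (sw I X W) ≫ IBmv I X s (I ⊗ W)
    rw [MonoidalCategory.whiskerLeft_comp, ← Category.assoc, sw_tensor]
    simp only [Category.assoc]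
    rw [ih, ← reassoc_of% (ipIso_nat I s (sw I X W))]

end Symmetric

variable {T : Type u} [Category.{v} T] [Preadditive T] [HasZeroObject T] [HasShift T ℤ]
  [∀ n : ℤ, (shiftFunctor T n).Additive] [Pretriangulated T] [MonoidalCategory T]
  [SymmetricCategory T] [TensorTriangulated T]

variable {R : T} [MonObj R]

/-- The isomorphism `(I^{⊗ s})⟦1⟧ ⊗ W ≅ (I ⊗ (I ⊗ (... ⊗ W)))⟦1⟧`. -/
noncomputable def thIso (I : T) (s : ℕ) (W : T) :
    ((Ip I s)⟦(1 : ℤ)⟧) ⊗ W ≅ (IB I s W)⟦(1 : ℤ)⟧ :=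
  H820.shR (Ip I s) W ≪≫ (shiftFunctor T (1 : ℤ)).mapIso (ipIso I s W)

lemma thIso_hom (I : T) (s : ℕ) (W : T) : (thIso I s W).hom =
    (H820.shR (Ip I s) W).hom ≫ (ipIso I s W).hom⟦(1 : ℤ)⟧' := rfl

lemma el_shift {I : T} (ε : I ⟶ 𝟙_ T) (s : ℕ) (W : T) :
    ((H766.el ε s)⟦(1 : ℤ)⟧' ▷ W) ≫ (H820.shR I W).hom =
      (thIso I (s + 1) W).hom ≫ (IBcol ε s (I ⊗ W))⟦(1 : ℤ)⟧' := by
  rw [shR_nat_left, el_whiskerRight, Functor.map_comp, thIso_hom, Category.assoc]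

lemma sw_shR (A X W : T) : sw (A⟦(1 : ℤ)⟧) X W ≫ (X ◁ (H820.shR A W).hom) ≫
    (csh X 1 (A ⊗ W)).hom = (H820.shR A (X ⊗ W)).hom ≫ (sw A X W)⟦(1 : ℤ)⟧' := by
  have h0 := csh_associator X W 1 A
  have h1 : sw (A⟦(1 : ℤ)⟧) X W ≫ (X ◁ (β_ (A⟦(1 : ℤ)⟧) W).hom) ≫
      (α_ X W (A⟦(1 : ℤ)⟧)).inv = (β_ (A⟦(1 : ℤ)⟧) (X ⊗ W)).hom := by
    rw [sw, BraidedCategory.braiding_tensor_right_hom]
    simp only [Category.assoc]
  have h2 : (α_ X W A).hom ≫ (X ◁ (β_ W A).hom) = (β_ (X ⊗ W) A).hom ≫ sw A X W := by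
    rw [sw, BraidedCategory.braiding_tensor_left_hom]
    simp only [Category.assoc, Iso.hom_inv_id_assoc, ← comp_whiskerRight_assoc,
      SymmetricCategory.symmetry]
    simp
  have h3 : (X ◁ (csh W 1 A).hom) ≫ (csh X 1 (W ⊗ A)).hom =
      (α_ X W (A⟦(1 : ℤ)⟧)).inv ≫ (csh (X ⊗ W) 1 A).hom ≫ ((α_ X W A).hom)⟦(1 : ℤ)⟧' := by
    rw [h0, Iso.inv_hom_id_assoc]
  rw [H820.shR_hom, H820.shR_hom]
  simp only [MonoidalCategory.whiskerLeft_comp, Category.assoc]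
  rw [csh_nat, reassoc_of% h3, reassoc_of% h1, ← Functor.map_comp, h2,
    Functor.map_comp]

/-- Compatibility of the isomorphism `thIso` with the exchange of factors. -/
theorem sw_thIso (I X : T) (s : ℕ) (W : T) : sw ((Ip I s)⟦(1 : ℤ)⟧) X W ≫
    (X ◁ (thIso I s W).hom) ≫ (csh X 1 (IB I s W)).hom =
      (thIso I s (X ⊗ W)).hom ≫ (IBmv I X s W)⟦(1 : ℤ)⟧' := by
  rw [thIso_hom, thIso_hom, MonoidalCategory.whiskerLeft_comp, Category.assoc, Category.assoc,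
    csh_nat, reassoc_of% (sw_shR (Ip I s) X W), ← Functor.map_comp, ← Functor.map_comp, sw_ipIso]

lemma kill_unit (F : UFib R) : Kill F.ε R := by
  refine kill_of_unital (ηR := η[R]) ?_ μ[R] ?_
  · exact comp_distTriang_mor_zero₁₂ _ F.dist_one
  · rw [MonObj.one_mul]
    simp

/-- **Existence of the truncated objects.** -/
theorem exists_npack [IsTriangulated T] (F : UFib R) (q : ℕ) (hq : 1 ≤ q) :
    Nonempty (NPack F q) := by
  obtain ⟨S⟩ := exists_stage (R := R) (hI := F.dist_one) (hR := kill_unit F) q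
  obtain ⟨q', rfl⟩ : ∃ q', q = q' + 1 := ⟨q - 1, by omega⟩
  have hel : R ◁ H766.el F.ε (q' + 1) = 0 := ((kill_unit F).ep_succ q').el
  have hcomm : ∀ W : T, (S.r ▷ W) ≫ F.bI W = (S.bd ▷ W) ≫ (thIso F.I (q' + 1 + 1) W).hom ≫
      (IBcol F.ε (q' + 1) (F.I ⊗ W))⟦(1 : ℤ)⟧' := by
    intro W
    rw [← el_shift, UFib.bI, ← comp_whiskerRight_assoc, S.r_d, comp_whiskerRight,
      Category.assoc]
  refine ⟨{ N := S.N, K := (Ip F.I (q' + 1 + 1))⟦(1 : ℤ)⟧, un := S.η, pr := S.bd,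
            κ := -(H766.ep F.ε (q' + 1 + 1))⟦(1 : ℤ)⟧', dist := S.dist.rot, null := ?_,
            r := S.r, un_r := S.η_r, r_bI := ?_, θ := fun W => thIso F.I (q' + 1 + 1) W,
            θ_nat := ?_, θ_sw := fun X W => sw_thIso F.I X (q' + 1 + 1) W, comm := hcomm,
            lift := ?_ }⟩
  · have h1 : S.N ◁ (H766.ep F.ε (q' + 1 + 1))⟦(1 : ℤ)⟧' = 0 :=
      whiskerLeft_shift_eq_zero _ _ S.kill
    have h2 : S.N ◁ (-(H766.ep F.ε (q' + 1 + 1))⟦(1 : ℤ)⟧') =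
        -(S.N ◁ (H766.ep F.ε (q' + 1 + 1))⟦(1 : ℤ)⟧') := (tensorLeft S.N).map_neg
    rw [h2, h1, neg_zero]
  · intro W
    have h1 : (H766.el F.ε (q' + 1) ▷ W) ≫ unitMap R (F.I ⊗ W) = 0 := by
      rw [unitMap_nat]
      have h2 : R ◁ (H766.el F.ε (q' + 1) ▷ W) = 0 := by
        rw [← cancel_epi (α_ R (Ip F.I (q' + 1 + 1)) W).hom, ← associator_naturality_middle,
          hel, zero_whiskerRight']
        simp
      rw [h2, comp_zero]
    rw [reassoc_of% (hcomm W), thIso_hom]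
    simp only [Category.assoc, ← Functor.map_comp]
    rw [← Category.assoc (ipIso F.I (q' + 1 + 1) W).hom, ← el_whiskerRight, h1,
      Functor.map_zero, comp_zero, comp_zero]
  · intro W W' f
    rw [thIso_hom, thIso_hom, shR_nat_right_assoc, Category.assoc, ← Functor.map_comp,
      ← Functor.map_comp, ipIso_nat]
  · intro Q W f g hfg
    refine S.lift f g ?_
    have h1 : (f ≫ (F.dR ▷ W)) ≫ (H820.shR F.I W).hom =
        (g ≫ ((H766.el F.ε (q' + 1))⟦(1 : ℤ)⟧' ▷ W)) ≫ (H820.shR F.I W).hom := by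
      rw [Category.assoc, Category.assoc, el_shift]
      exact hfg
    exact (cancel_mono _).1 h1

end Vale.Agent.P257.H766
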