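import Vale.Agent.P257.H766.Stage

/-!
# P257, H766: multiplications on cofibres

`P ⟶ 𝟙 ⟶ N ⟶ P⟦1⟧` is a distinguished triangle (maps `e`, `η`, `d`) with `N ◁ e = 0`.

* `kill_shift_comp`: `P⟦1⟧ ⟶ 𝟙⟦1⟧ ⟶ X` is zero if `X ◁ e = 0`;
* `exists_unital`: a two-sided unital multiplication `m : N ⊗ N ⟶ N`;
* `factor`: a map `N ⊗ N ⟶ Z` vanishing on both units factors through `d ⊗ d`;
* `exists_derivation`, `exists_mult_r`: the two applications;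
* `Stage.r_dR_unit`.
-/

open CategoryTheory MonoidalCategory Limits Pretriangulated ZeroObject
open Vale.Agent.P251.T Vale.Agent.P251.S Vale.Agent.P251.H Vale.Agent.P251.M

universe v u

set_option linter.unusedSectionVars false

namespace Vale.Agent.P257.H766

variable {T : Type u} [Category.{v} T] [MonoidalCategory T] [Preadditive T] [HasZeroObject T]
  [HasShift T ℤ] [∀ n : ℤ, (shiftFunctor T n).Additive] [Pretriangulated T]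
  [SymmetricCategory T] [TensorTriangulated T]

section

variable {P N : T} {e : P ⟶ 𝟙_ T} {η : 𝟙_ T ⟶ N} {d : N ⟶ P⟦(1 : ℤ)⟧}

/-- The shift of a map to the unit. -/
lemma shift_eq (e : P ⟶ 𝟙_ T) : e⟦(1 : ℤ)⟧' = (TensorTriangulated.e P).inv ≫
    (β_ P ((𝟙_ T)⟦(1 : ℤ)⟧)).hom ≫ (((𝟙_ T)⟦(1 : ℤ)⟧) ◁ e) ≫ (ρ_ _).hom := by
  have h1 : (e ▷ ((𝟙_ T)⟦(1 : ℤ)⟧)) ≫ (λ_ ((𝟙_ T)⟦(1 : ℤ)⟧)).hom =
      (TensorTriangulated.e P).hom ≫ e⟦(1 : ℤ)⟧' := by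
    rw [← TensorTriangulated.e_unit, TensorTriangulated.e_naturality]
  rw [← cancel_epi (TensorTriangulated.e P).hom, ← h1, Iso.hom_inv_id_assoc,
    ← BraidedCategory.braiding_naturality_left_assoc, braiding_tensorUnit_left]
  simp

/-- `P⟦1⟧ ⟶ 𝟙⟦1⟧ ⟶ X` is zero if `X ◁ e = 0`. -/
lemma kill_shift_comp {X : T} (hX : Kill e X) (ζ : (𝟙_ T)⟦(1 : ℤ)⟧ ⟶ X) :
    e⟦(1 : ℤ)⟧' ≫ ζ = 0 := by
  have h := hX.comp ζ
  rw [shift_eq]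
  simp only [Category.assoc]
  rw [h, comp_zero, comp_zero]

/-- A two-sided unital multiplication on `N`. -/
theorem exists_unital (D : Dist e η d) (hk : Kill e N) : ∃ m : N ⊗ N ⟶ N,
    (η ▷ N) ≫ m = (λ_ N).hom ∧ (N ◁ η) ≫ m = (ρ_ N).hom := by
  have hk' : N ◁ e = 0 := hk
  obtain ⟨m₀, hm₀⟩ := (dist_whiskerLeft N D).desc₂ (ρ_ N).hom (by rw [hk', zero_comp])
  have h1 : η ≫ ((λ_ N).inv ≫ (η ▷ N) ≫ m₀ - 𝟙 N) = 0 := by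
    rw [Preadditive.comp_sub, Category.comp_id, leftUnitor_inv_naturality_assoc,
      whisker_exchange_assoc, hm₀, rightUnitor_naturality, ← unitors_equal]
    simp
  obtain ⟨ν, hν⟩ := D.desc₃ _ h1
  set c : N ⊗ N ⟶ N := (N ◁ d) ≫ (β_ N (P⟦(1 : ℤ)⟧)).hom ≫ (ν ▷ N) ≫ m₀ with hc
  have h2 : (N ◁ η) ≫ c = 0 := by
    have h3 : η ≫ d = 0 := D.zero₂₃
    rw [hc, ← MonoidalCategory.whiskerLeft_comp_assoc, h3, whiskerLeft_zero', zero_comp]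
  have h3 : (η ▷ N) ≫ c = (η ▷ N) ≫ m₀ - (λ_ N).hom := by
    have h4 : (η ▷ N) ≫ c = (λ_ N).hom ≫ d ≫ ν := by
      rw [hc, ← whisker_exchange_assoc, BraidedCategory.braiding_naturality_left_assoc,
        whisker_exchange_assoc, hm₀, rightUnitor_naturality, braiding_tensorUnit_left]
      simp
    rw [h4, hν, Preadditive.comp_sub]
    simp
  refine ⟨m₀ - c, ?_, ?_⟩
  · rw [Preadditive.comp_sub, h3]
    abel
  · rw [Preadditive.comp_sub, h2, hm₀, sub_zero]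

/-- **Factor lemma.** A map from `N ⊗ N` vanishing on both units factors through `d ⊗ d`. -/
theorem factor (D : Dist e η d) {Z : T} (hZ : Kill e Z) (Φ : N ⊗ N ⟶ Z)
    (h₁ : (η ▷ N) ≫ Φ = 0) (h₂ : (N ◁ η) ≫ Φ = 0) :
    ∃ Φ₂ : P⟦(1 : ℤ)⟧ ⊗ P⟦(1 : ℤ)⟧ ⟶ Z, Φ = (d ▷ N) ≫ (P⟦(1 : ℤ)⟧ ◁ d) ≫ Φ₂ := by
  obtain ⟨b, hb⟩ := (dist_whiskerRight N D).desc₃ Φ h₁
  rw [Category.assoc] at hb
  have h3 : d ≫ (ρ_ _).inv ≫ (P⟦(1 : ℤ)⟧ ◁ η) ≫ (shR P N).hom ≫ b = 0 := by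
    rw [rightUnitor_inv_naturality_assoc, ← whisker_exchange_assoc, hb, h₂, comp_zero]
  obtain ⟨ζ, hζ⟩ := D.desc₁ _ h3
  rw [kill_shift_comp hZ ζ] at hζ
  have h4 : (P⟦(1 : ℤ)⟧ ◁ η) ≫ (shR P N).hom ≫ b = 0 := by
    rw [← cancel_epi (ρ_ (P⟦(1 : ℤ)⟧)).inv, comp_zero, ← hζ]
  obtain ⟨b', hb'⟩ := (dist_whiskerLeft (P⟦(1 : ℤ)⟧) D).desc₃ _ h4
  refine ⟨(shL (P⟦(1 : ℤ)⟧) P).hom ≫ b', ?_⟩
  rw [Category.assoc] at hb'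
  rw [hb', hb]

/-- The boundary map is a derivation up to a term factoring through `d ⊗ d`. -/
theorem exists_derivation (D : Dist e η d) (hk : Kill e N) (m : N ⊗ N ⟶ N)
    (hl : (η ▷ N) ≫ m = (λ_ N).hom) (hr : (N ◁ η) ≫ m = (ρ_ N).hom) :
    ∃ Δ : P⟦(1 : ℤ)⟧ ⊗ P⟦(1 : ℤ)⟧ ⟶ N ⊗ P⟦(1 : ℤ)⟧,
      m ≫ d ≫ (λ_ _).inv ≫ (η ▷ P⟦(1 : ℤ)⟧) = (N ◁ d) +
        (d ▷ N) ≫ (β_ (P⟦(1 : ℤ)⟧) N).hom + (d ▷ N) ≫ (P⟦(1 : ℤ)⟧ ◁ d) ≫ Δ := by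
  have h0 : η ≫ d = 0 := D.zero₂₃
  obtain ⟨Δ, hΔ⟩ := factor D (hk.tensor_right (P⟦(1 : ℤ)⟧))
    (m ≫ d ≫ (λ_ _).inv ≫ (η ▷ P⟦(1 : ℤ)⟧) - (N ◁ d) - (d ▷ N) ≫ (β_ (P⟦(1 : ℤ)⟧) N).hom)
    (by
      rw [Preadditive.comp_sub, Preadditive.comp_sub, reassoc_of% hl, ← comp_whiskerRight_assoc,
        h0, zero_whiskerRight', zero_comp, sub_zero, sub_eq_zero, ← whisker_exchange,
        leftUnitor_inv_naturality_assoc]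
      simp)
    (by
      rw [Preadditive.comp_sub, Preadditive.comp_sub, reassoc_of% hr,
        ← MonoidalCategory.whiskerLeft_comp, h0, whiskerLeft_zero', sub_zero, sub_eq_zero,
        whisker_exchange_assoc, BraidedCategory.braiding_naturality_right,
        braiding_tensorUnit_right]
      simp)
  refine ⟨Δ, ?_⟩
  rw [← hΔ]
  abel

/-- `N ⟶ R` is multiplicative up to a term factoring through `d ⊗ d`. -/
theorem exists_mult_r (D : Dist e η d) {R : T} (hR : Kill e R) {ηR : 𝟙_ T ⟶ R}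
    {μR : R ⊗ R ⟶ R} (hμl : (ηR ▷ R) ≫ μR = (λ_ R).hom) (hμr : (R ◁ ηR) ≫ μR = (ρ_ R).hom)
    (r : N ⟶ R) (hr' : η ≫ r = ηR) (m : N ⊗ N ⟶ N)
    (hl : (η ▷ N) ≫ m = (λ_ N).hom) (hr : (N ◁ η) ≫ m = (ρ_ N).hom) :
    ∃ Φ : P⟦(1 : ℤ)⟧ ⊗ P⟦(1 : ℤ)⟧ ⟶ R,
      m ≫ r = (r ▷ N) ≫ (R ◁ r) ≫ μR + (d ▷ N) ≫ (P⟦(1 : ℤ)⟧ ◁ d) ≫ Φ := by
  obtain ⟨Φ, hΦ⟩ := factor D hR (m ≫ r - (r ▷ N) ≫ (R ◁ r) ≫ μR)
    (by
      rw [Preadditive.comp_sub, reassoc_of% hl, ← comp_whiskerRight_assoc, hr',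
        ← whisker_exchange_assoc, hμl, leftUnitor_naturality, sub_self])
    (by
      rw [Preadditive.comp_sub, reassoc_of% hr, whisker_exchange_assoc,
        ← MonoidalCategory.whiskerLeft_comp_assoc, hr', hμr, rightUnitor_naturality, sub_self])
  refine ⟨Φ, ?_⟩
  rw [← hΦ]
  abel

end

section Stage

variable {R I : T} {ε : I ⟶ 𝟙_ T} {ηR : 𝟙_ T ⟶ R} {dR : R ⟶ I⟦(1 : ℤ)⟧} {n : ℕ}

/-- If `M ◁ ε = 0` then `M ◁ ep ε (n + 1) = 0`. -/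
lemma Kill.ep_succ {M : T} (h : Kill ε M) (n : ℕ) : Kill (ep ε (n + 1)) M := by
  have h' : M ◁ ε = 0 := h
  rw [Kill, ← el_comp, MonoidalCategory.whiskerLeft_comp, h', comp_zero]

lemma Kill.el {M : T} (h : Kill (ep ε n) M) : M ◁ el ε n = 0 := by
  have h1 : M ◁ (ep ε n ▷ I) = 0 := by
    have h' : M ◁ ep ε n = 0 := h
    rw [← cancel_epi (α_ M (Ip I n) I).hom, ← associator_naturality_middle, h',
      zero_whiskerRight']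
    simp
  rw [H766.el, MonoidalCategory.whiskerLeft_comp, h1, zero_comp]

/-- `N ⟶ R ⟶ I⟦1⟧ ⟶ R ⊗ I⟦1⟧` is zero for `n ≥ 1`. -/
lemma Stage.r_dR_unit (S : Stage ε ηR dR (n + 1)) (hR : Kill ε R) :
    S.r ≫ dR ≫ (λ_ _).inv ≫ (ηR ▷ I⟦(1 : ℤ)⟧) = 0 := by
  have h1 : R ◁ (H766.el ε (n + 1))⟦(1 : ℤ)⟧' = 0 :=
    whiskerLeft_shift_eq_zero _ _ (hR.ep_succ n).el
  rw [← Category.assoc, S.r_d, Category.assoc, leftUnitor_inv_naturality_assoc,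
    whisker_exchange, h1, comp_zero, comp_zero, comp_zero]

end Stage

end Vale.Agent.P257.H766
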