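import Vale.Agent.P257.H766.Tens

/-!
# P257, H766: the cofibres of `I^{⊗ n} ⟶ 𝟙`

`I ⟶ 𝟙 ⟶ R ⟶ I⟦1⟧` is a distinguished triangle, `ηR ≫ unit of a unital multiplication`.

* `Ip I n = I^{⊗ n}`, `ep ε n : Ip I n ⟶ 𝟙`, `el ε n : Ip I (n+1) ⟶ I`;
* `Kill ε M`: the map `M ◁ ε` is zero; true for `M = R ⊗ X`;
* `Stage ηR dR ε n`: the cofibre `N` of `ep ε (n+1)`, with `N ◁ ep ε (n+1) = 0`, the map
  `r : N ⟶ R`, and the weak pullback property.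
-/

open CategoryTheory MonoidalCategory Limits Pretriangulated ZeroObject
open Vale.Agent.P251.T Vale.Agent.P251.S Vale.Agent.P251.H Vale.Agent.P251.M

universe v u

set_option linter.unusedSectionVars false

namespace Vale.Agent.P257.H766

variable {T : Type u} [Category.{v} T] [MonoidalCategory T]

/-- The power `I^{⊗ n}`, the new factor on the right. -/
@[reducible] def Ip (I : T) : ℕ → T
  | 0 => 𝟙_ T
  | n + 1 => Ip I n ⊗ I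

/-- The map `I^{⊗ n} ⟶ 𝟙`. -/
def ep {I : T} (ε : I ⟶ 𝟙_ T) : ∀ n, Ip I n ⟶ 𝟙_ T
  | 0 => 𝟙 _
  | n + 1 => (ep ε n ▷ I) ≫ (λ_ I).hom ≫ ε

/-- The map `I^{⊗ (n + 1)} ⟶ I` keeping the last factor. -/
def el {I : T} (ε : I ⟶ 𝟙_ T) (n : ℕ) : Ip I (n + 1) ⟶ I := (ep ε n ▷ I) ≫ (λ_ I).hom

@[simp] lemma ep_zero {I : T} (ε : I ⟶ 𝟙_ T) : ep ε 0 = 𝟙 _ := rfl

lemma ep_succ {I : T} (ε : I ⟶ 𝟙_ T) (n : ℕ) :
    ep ε (n + 1) = (ep ε n ▷ I) ≫ (λ_ I).hom ≫ ε := rfl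

lemma el_comp {I : T} (ε : I ⟶ 𝟙_ T) (n : ℕ) : el ε n ≫ ε = ep ε (n + 1) := by
  rw [el, ep_succ, Category.assoc]

lemma ep_succ' {I : T} (ε : I ⟶ 𝟙_ T) (n : ℕ) :
    ep ε (n + 1) = (Ip I n ◁ ε) ≫ (ρ_ _).hom ≫ ep ε n := by
  rw [ep_succ, ← rightUnitor_naturality, whisker_exchange_assoc, ← unitors_equal,
    leftUnitor_naturality]

variable [Preadditive T] [HasZeroObject T] [HasShift T ℤ]
  [∀ n : ℤ, (shiftFunctor T n).Additive] [Pretriangulated T]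
  [SymmetricCategory T] [TensorTriangulated T]

section Kill

variable {I : T} (ε : I ⟶ 𝟙_ T)

/-- `M ⊗ ε` is zero. -/
def Kill (M : T) : Prop := M ◁ ε = 0

variable {ε}

lemma Kill.of_retract {M M' : T} (h : Kill ε M') (i : M ⟶ M') (r : M' ⟶ M) (hi : i ≫ r = 𝟙 M) :
    Kill ε M := by
  have h' : M' ◁ ε = 0 := h
  have h1 : M ◁ ε = (i ▷ I) ≫ (M' ◁ ε) ≫ (r ▷ 𝟙_ T) := by
    rw [← whisker_exchange_assoc, ← comp_whiskerRight, hi, id_whiskerRight, Category.comp_id]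
  rw [Kill, h1, h', zero_comp, comp_zero]

lemma Kill.of_iso {M M' : T} (h : Kill ε M') (e : M ≅ M') : Kill ε M :=
  h.of_retract e.hom e.inv e.hom_inv_id

lemma Kill.tensor_right {M : T} (h : Kill ε M) (X : T) : Kill ε (M ⊗ X) := by
  have h' : M ◁ ε = 0 := h
  have h1 : (M ◁ ε) ▷ X = 0 := by rw [h', zero_whiskerRight']
  have h2 : M ◁ (ε ▷ X) = 0 := by
    rw [← cancel_epi (α_ M I X).hom, ← associator_naturality_middle, h1]
    simp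
  have h3 : M ◁ (X ◁ ε) = 0 := by
    have h4 : X ◁ ε = (β_ X I).hom ≫ (ε ▷ X) ≫ (β_ X (𝟙_ T)).inv := by
      rw [← BraidedCategory.braiding_naturality_right_assoc]
      simp
    rw [h4, MonoidalCategory.whiskerLeft_comp, MonoidalCategory.whiskerLeft_comp, h2, zero_comp,
      comp_zero]
  rw [Kill, ← cancel_mono (α_ M X (𝟙_ T)).hom, associator_naturality_right, h3]
  simp

lemma Kill.tensor_left {M : T} (h : Kill ε M) (X : T) : Kill ε (X ⊗ M) :=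
  (h.tensor_right X).of_iso (β_ X M)

lemma Kill.comp {M Y : T} (h : Kill ε M) (f : Y ⟶ M) : (Y ◁ ε) ≫ (ρ_ Y).hom ≫ f = 0 := by
  have h' : M ◁ ε = 0 := h
  rw [← rightUnitor_naturality, whisker_exchange_assoc, h', zero_comp, comp_zero]

/-- A unital multiplication kills the fibre of the unit. -/
lemma kill_of_unital {R : T} {ηR : 𝟙_ T ⟶ R} (h : ε ≫ ηR = 0) (m : R ⊗ R ⟶ R)
    (hm : (λ_ R).inv ≫ (ηR ▷ R) ≫ m = 𝟙 R) : Kill ε R := by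
  have h1 : (R ◁ ε) ≫ (ρ_ R).hom ≫ (λ_ R).inv ≫ (ηR ▷ R) = 0 := by
    have h2 : (ρ_ R).hom ≫ (λ_ R).inv ≫ (ηR ▷ R) = (R ◁ ηR) ≫ (β_ R R).hom := by
      rw [BraidedCategory.braiding_naturality_right, braiding_tensorUnit_right]
      simp
    rw [h2, ← MonoidalCategory.whiskerLeft_comp_assoc, h, whiskerLeft_zero', zero_comp]
  have h3 : (R ◁ ε) ≫ (ρ_ R).hom = 0 := by
    calc (R ◁ ε) ≫ (ρ_ R).hom = ((R ◁ ε) ≫ (ρ_ R).hom ≫ (λ_ R).inv ≫ (ηR ▷ R)) ≫ m := by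
          simp only [Category.assoc]
          rw [hm, Category.comp_id]
      _ = 0 := by rw [h1, zero_comp]
  rw [Kill, ← cancel_mono (ρ_ R).hom, h3, zero_comp]

end Kill

/-- Replacing the middle object of a triangle. -/
lemma dist_of_iso₂ {X Y Y' Z : T} {f : X ⟶ Y} {g : Y ⟶ Z} {h : Z ⟶ X⟦(1 : ℤ)⟧}
    (D : Dist f g h) (e : Y ≅ Y') : Dist (f ≫ e.hom) (e.inv ≫ g) h := by
  refine isomorphic_distinguished _ D _ (Triangle.isoMk _ _ (Iso.refl X) e.symm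
    (Iso.refl Z) ?_ ?_ ?_)
  · show (f ≫ e.hom) ≫ e.inv = 𝟙 X ≫ f; simp
  · show (e.inv ≫ g) ≫ 𝟙 Z = e.inv ≫ g; simp
  · show h ≫ (𝟙 X)⟦(1 : ℤ)⟧' = 𝟙 Z ≫ h; simp

section Stage

variable {R I : T}

/-- The cofibre of `I^{⊗ n} ⟶ 𝟙`, killing `I^{⊗ n} ⟶ 𝟙`. -/
structure PreStage (ε : I ⟶ 𝟙_ T) (n : ℕ) where
  /-- the cofibre -/
  N : T
  /-- the unit -/
  η : 𝟙_ T ⟶ N
  /-- the boundary map -/
  bd : N ⟶ (Ip I n)⟦(1 : ℤ)⟧
  dist : Dist (ep ε n) η bd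
  kill : N ◁ ep ε n = 0

/-- The cofibre of `I^{⊗ (n+1)} ⟶ 𝟙` with its map to the cofibre `R` of `I ⟶ 𝟙`. -/
structure Stage (ε : I ⟶ 𝟙_ T) (ηR : 𝟙_ T ⟶ R) (dR : R ⟶ I⟦(1 : ℤ)⟧) (n : ℕ) extends
    PreStage ε (n + 1) where
  /-- the map to `R` -/
  r : N ⟶ R
  η_r : η ≫ r = ηR
  r_d : r ≫ dR = bd ≫ (el ε n)⟦(1 : ℤ)⟧'
  lift : ∀ {Q A : T} (f : Q ⟶ R ⊗ A) (g : Q ⟶ ((Ip I (n + 1))⟦(1 : ℤ)⟧) ⊗ A),
    f ≫ (dR ▷ A) = g ≫ ((el ε n)⟦(1 : ℤ)⟧' ▷ A) →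
    ∃ h : Q ⟶ N ⊗ A, h ≫ (r ▷ A) = f ∧ h ≫ (bd ▷ A) = g

lemma exists_preStage_zero (ε : I ⟶ 𝟙_ T) : Nonempty (PreStage ε 0) := by
  refine ⟨⟨0, 0, 0, ?_, ?_⟩⟩
  · exact contractible_distinguished _
  · have h : IsZero ((0 : T) ⊗ (𝟙_ T)) := (tensorRight (𝟙_ T)).map_isZero (isZero_zero T)
    exact h.eq_of_tgt _ _

/-- One step: the octahedral axiom. -/
lemma exists_stage_succ [IsTriangulated T] {ε : I ⟶ 𝟙_ T} {ηR : 𝟙_ T ⟶ R}
    {dR : R ⟶ I⟦(1 : ℤ)⟧} (hI : Dist ε ηR dR) (hR : Kill ε R) (n : ℕ) (S : PreStage ε n) :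
    Nonempty (Stage ε ηR dR n) := by
  have h12 := dist_of_iso₂ (dist_whiskerRight I S.dist) (λ_ I)
  obtain ⟨N', η', bd', h13⟩ := exists_cone (ep ε (n + 1))
  obtain ⟨m₁, m₃, c1, c2, c3, c4, O⟩ :=
    exists_octa (u₁₂ := el ε n) (u₂₃ := ε) (el_comp ε n) h12 hI h13
  set v12 : I ⟶ S.N ⊗ I := (λ_ I).inv ≫ (S.η ▷ I) with hv12
  set w12 : S.N ⊗ I ⟶ (Ip I n ⊗ I)⟦(1 : ℤ)⟧ := (S.bd ▷ I) ≫ (shR (Ip I n) I).hom with hw12
  -- `N'` kills the map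
  have hkill : N' ◁ ep ε (n + 1) = 0 := by
    have e1 : N' ◁ ep ε (n + 1) = ((N' ◁ (Ip I n ◁ ε)) ≫ (N' ◁ (ρ_ (Ip I n)).hom)) ≫
        (N' ◁ ep ε n) := by
      rw [← MonoidalCategory.whiskerLeft_comp, ← MonoidalCategory.whiskerLeft_comp,
        Category.assoc, ← ep_succ']
    have e2 : ((N' ◁ (Ip I n ◁ ε)) ≫ (N' ◁ (ρ_ (Ip I n)).hom)) ≫ (m₃ ▷ Ip I n) = 0 := by
      have e3 : R ◁ (Ip I n ◁ ε) = 0 := by
        have e4 : (R ⊗ Ip I n) ◁ ε = 0 := hR.tensor_right _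
        rw [← cancel_epi (α_ R (Ip I n) I).hom, ← associator_naturality_right, e4]
        simp
      rw [Category.assoc, whisker_exchange, whisker_exchange_assoc, e3, zero_comp, comp_zero]
    obtain ⟨b, hb⟩ := (dist_whiskerRight (Ip I n) O).lift₂ _ e2
    have e5 : (S.N ⊗ I) ◁ ep ε n = 0 := by
      have e6 : Kill (ep ε n) S.N := S.kill
      exact e6.tensor_right I
    rw [e1, ← hb, Category.assoc, ← whisker_exchange, e5, zero_comp, comp_zero]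
  refine ⟨{ N := N', η := η', bd := bd', dist := h13, kill := hkill, r := m₃, η_r := c3,
            r_d := c4.symm, lift := ?_ }⟩
  intro Q A f g hfg
  have z1 : el ε n ≫ v12 = 0 := h12.zero₁₂
  obtain ⟨h0, hh0⟩ := (dist_whiskerRight A O).lift₃ f (by
    rw [comp_whiskerRight, Category.assoc, reassoc_of% hfg, ← comp_whiskerRight_assoc,
      ← Functor.map_comp, z1, Functor.map_zero, zero_whiskerRight', zero_comp, comp_zero])
  have h3 : (h0 ≫ (bd' ▷ A) - g) ≫ ((el ε n)⟦(1 : ℤ)⟧' ▷ A) = 0 := by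
    rw [Preadditive.sub_comp, Category.assoc, ← comp_whiskerRight, c4, comp_whiskerRight,
      ← hfg, ← hh0]
    simp
  obtain ⟨t, ht⟩ := (dist_whiskerRight A h12).lift₁ ((h0 ≫ (bd' ▷ A) - g) ≫ (shR _ A).hom) (by
    rw [Category.assoc, ← shR_nat]
    have h4 := h3
    rw [← cancel_mono (shR I A).hom, zero_comp, Category.assoc] at h4
    exact h4)
  rw [← Category.assoc, cancel_mono] at ht
  refine ⟨h0 - t ≫ (m₁ ▷ A), ?_, ?_⟩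
  · have h5 : m₁ ≫ m₃ = 0 := O.zero₁₂
    rw [Preadditive.sub_comp, Category.assoc, ← comp_whiskerRight, h5, zero_whiskerRight',
      comp_zero, sub_zero, hh0]
  · rw [Preadditive.sub_comp, Category.assoc, ← comp_whiskerRight, c2, ht]
    abel

/-- **The tower of cofibres.** -/
theorem exists_stage [IsTriangulated T] {ε : I ⟶ 𝟙_ T} {ηR : 𝟙_ T ⟶ R}
    {dR : R ⟶ I⟦(1 : ℤ)⟧} (hI : Dist ε ηR dR) (hR : Kill ε R) (n : ℕ) :
    Nonempty (Stage ε ηR dR n) := by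
  induction n with
  | zero =>
    obtain ⟨S⟩ := exists_preStage_zero ε
    exact exists_stage_succ hI hR 0 S
  | succ n ih =>
    obtain ⟨S⟩ := ih
    exact exists_stage_succ hI hR (n + 1) S.toPreStage

end Stage

end Vale.Agent.P257.H766
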