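import Vale.Agent.P251.M.CofIn
import Vale.Agent.P251.S.TensorShift

/-!
# P257, H766: tensoring unbundled distinguished triangles
-/

open CategoryTheory MonoidalCategory Limits Pretriangulated ZeroObject
open Vale.Agent.P251.T Vale.Agent.P251.S Vale.Agent.P251.H Vale.Agent.P251.M

universe v u

set_option linter.unusedSectionVars false

namespace Vale.Agent.P257.H766

variable {T : Type u} [Category.{v} T] [Preadditive T] [HasZeroObject T] [HasShift T ℤ]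
  [∀ n : ℤ, (shiftFunctor T n).Additive] [Pretriangulated T] [MonoidalCategory T]
  [SymmetricCategory T] [TensorTriangulated T]

/-- `X ⊗ Y⟦1⟧ ≅ (X ⊗ Y)⟦1⟧`, naturally in `Y`. -/
noncomputable def shL (X Y : T) : X ⊗ (Y⟦(1 : ℤ)⟧) ≅ (X ⊗ Y)⟦(1 : ℤ)⟧ :=
  ((tensorLeft X).commShiftIso (1 : ℤ)).app Y

/-- `Y⟦1⟧ ⊗ X ≅ (Y ⊗ X)⟦1⟧`, naturally in `Y`. -/
noncomputable def shR (Y X : T) : (Y⟦(1 : ℤ)⟧) ⊗ X ≅ (Y ⊗ X)⟦(1 : ℤ)⟧ :=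
  ((tensorRight X).commShiftIso (1 : ℤ)).app Y

@[reassoc]
lemma shL_nat (X : T) {Y Y' : T} (f : Y ⟶ Y') :
    (X ◁ f⟦(1 : ℤ)⟧') ≫ (shL X Y').hom = (shL X Y).hom ≫ (X ◁ f)⟦(1 : ℤ)⟧' :=
  ((tensorLeft X).commShiftIso (1 : ℤ)).hom.naturality f

@[reassoc]
lemma shR_nat (X : T) {Y Y' : T} (f : Y ⟶ Y') :
    (f⟦(1 : ℤ)⟧' ▷ X) ≫ (shR Y' X).hom = (shR Y X).hom ≫ (f ▷ X)⟦(1 : ℤ)⟧' :=
  ((tensorRight X).commShiftIso (1 : ℤ)).hom.naturality f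

lemma whiskerLeft_shift_eq_zero (X : T) {Y Y' : T} (f : Y ⟶ Y') (h : X ◁ f = 0) :
    X ◁ f⟦(1 : ℤ)⟧' = 0 := by
  rw [← cancel_mono (shL X Y').hom, shL_nat, h, zero_comp]
  simp

lemma whiskerRight_shift_eq_zero (X : T) {Y Y' : T} (f : Y ⟶ Y') (h : f ▷ X = 0) :
    f⟦(1 : ℤ)⟧' ▷ X = 0 := by
  rw [← cancel_mono (shR Y' X).hom, shR_nat, h, zero_comp]
  simp

lemma whiskerLeft_zero' (X : T) {Y Y' : T} : X ◁ (0 : Y ⟶ Y') = 0 :=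
  (tensorLeft X).map_zero _ _

lemma zero_whiskerRight' (X : T) {Y Y' : T} : (0 : Y ⟶ Y') ▷ X = 0 :=
  (tensorRight X).map_zero _ _

section

variable {X Y Z : T} {f : X ⟶ Y} {g : Y ⟶ Z} {h : Z ⟶ X⟦(1 : ℤ)⟧}

lemma dist_whiskerLeft (A : T) (D : Dist f g h) :
    Dist (A ◁ f) (A ◁ g) ((A ◁ h) ≫ (shL A X).hom) :=
  (tensorLeft A).map_distinguished _ D

lemma dist_whiskerRight (A : T) (D : Dist f g h) :
    Dist (f ▷ A) (g ▷ A) ((h ▷ A) ≫ (shR X A).hom) :=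
  (tensorRight A).map_distinguished _ D

end

end Vale.Agent.P257.H766
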